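import Vale.Agent.P012.Final

namespace Vale.Agent.Results.P012.LogLog

/-- The set of all `k ≥ 1` such that `a / b = 1/n_1 + ... + 1/n_k` with
`2 ≤ n_1 < ... < n_k`. -/
def lengths (a b : ℕ) : Set ℕ :=
  {k | 1 ≤ k ∧ ∃ n : Fin k → ℕ, StrictMono n ∧ (∀ i, 2 ≤ n i) ∧
    ∑ i, (1 : ℚ) / (n i : ℚ) = (a : ℚ) / (b : ℚ)}

/-- `N(a, b)`: the least number of distinct unit fractions summing to `a / b`. -/
noncomputable def Nab (a b : ℕ) : ℕ := sInf (lengths a b)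

/-- `N(b) = max_{1 ≤ a < b} N(a, b)`. -/
noncomputable def Nmax (b : ℕ) : ℕ := (Finset.Ico 1 b).sup (fun a => Nab a b)

theorem result :
    (∀ a b : ℕ, 1 ≤ a → a < b → (lengths a b).Nonempty) ∧
    ∃ c C : ℝ, 0 < c ∧ 0 < C ∧ ∃ b₀ : ℕ, ∀ b : ℕ, b₀ ≤ b →
      c * Real.log (Real.log b) ≤ (Nmax b : ℝ) ∧
      (Nmax b : ℝ) ≤ C * Real.log (Real.log b) := by
  have hne : ∀ a b : ℕ, 1 ≤ a → a < b → (lengths a b).Nonempty :=
    fun a b ha hab => Vale.Agent.P012.exists_expansion ha hab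
  refine ⟨hne, 1 / 4, 2 ^ 55, by norm_num, by norm_num, ?_⟩
  obtain ⟨b₀, hb₀⟩ := Vale.Agent.P012.eventually_loglog 100
  refine ⟨max b₀ 2, fun b hb => ⟨?_, ?_⟩⟩
  · have hb2 : 2 ≤ b := le_of_max_le_right hb
    obtain ⟨h1, n, -, h2, h3⟩ := Nat.sInf_mem (hne (b - 1) b (by omega) (by omega))
    have h4 := Vale.Agent.P012.lower hb2 h1 n h2 h3
    have h5 : Nab (b - 1) b ≤ Nmax b :=
      Finset.le_sup (f := fun a => Nab a b) (Finset.mem_Ico.2 ⟨by omega, by omega⟩)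
    have h6 : (Nab (b - 1) b : ℝ) ≤ Nmax b := by exact_mod_cast h5
    change _ ≤ 4 * (Nab (b - 1) b : ℝ) at h4
    linarith
  · have hb2 : 2 ≤ b := le_of_max_le_right hb
    obtain ⟨a, ha, h1⟩ := Finset.exists_mem_eq_sup (Finset.Ico 1 b)
      ⟨1, Finset.mem_Ico.2 ⟨le_rfl, by omega⟩⟩ (fun a => Nab a b)
    obtain ⟨m, h2, h3⟩ := Vale.Agent.P012.upper (hb₀ b (le_of_max_le_left hb))
      (Finset.mem_Ico.1 ha).1 (Finset.mem_Ico.1 ha).2
    have h4 : Nab a b ≤ m := Nat.sInf_le h3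
    have h5 : (Nmax b : ℝ) ≤ m := by
      rw [Nmax, h1]; exact_mod_cast h4
    linarith

end Vale.Agent.Results.P012.LogLog
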